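import Vale.Agent.P287D.En.Pair
import Vale.Agent.P287D.Sf.Kl
import Vale.Agent.P287D.Pb.Deg
import Vale.Agent.P287D.Cb.Row
import Vale.Agent.P287D.Hd.St

/-!
# P287D, END: covers of bounded degree
-/

set_option linter.unusedVariables false
set_option linter.unusedSectionVars false

open Set Function

noncomputable section

namespace Vale.Agent.P287D.En

open Sf Sh Pb Gx

variable {L M : Type} [Field L] [Algebra ℂ L] [Field M] [Algebra ℂ M] [Algebra L M]
  [IsScalarTower ℂ L M] {Z β γ Λ : BD L} {P : Pl M} {Q : Pl L} (hL : FF L 2) (hM : FF M 2)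

theorem lin (c : ℂ) : algebraMap L M (algebraMap ℂ L c) = algebraMap ℂ M c :=
  (IsScalarTower.algebraMap_apply ℂ L M c).symm

include hL hM

theorem ok : Ok (algebraMap L M) := (Cst.of_lin lin).ok hL hM

theorem I2_pb (Z : BD L) (hγ : γ ∈ Car L) :
    I2 (pb (algebraMap L M) Z) (pb (algebraMap L M) γ) = Module.finrank L M * I2 Z γ := by
  have := deg In.hy res' 2 L M _ lin hL hM ![Z, γ] (Fin.forall_fin_two.2
    ⟨fun k => (k rfl).elim, fun _ => hγ⟩)
  rw [rk, show (algebraMap L M).toAlgebra = ‹Algebra L M› from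
    Algebra.algebra_ext _ _ fun _ => rfl] at this
  refine Eq.trans (congrArg (I 2 M) (funext fun i => ?_)) this
  fin_cases i <;> rfl

theorem dg_pb (l : Lies (algebraMap L M) P Q) (hβ : β ∈ Car L) :
    ∃ r : ℝ, 0 < r ∧ dg (pb (algebraMap L M) β) P = r * dg β Q := by
  have c := rd_lin l.isRd lin
  have f0 := In.hy.rsd 1 L hL Q
  have f1 := In.hy.rsd 1 M hM P
  have a := deg In.hy res' 1 _ _ l.κ c f0 f1 ![res Q β] fun j k => (k (by omega)).elim
  have b := I_congr In.hy f1 (β := fun j : Fin 1 => pb l.κ (![res Q β] j))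
    (γ := ![res P (pb (algebraMap L M) β)])
    (Fin.forall_fin_one.2 (((Cst.of_lin c).ok f0 f1).car (In.res_car _ _)))
    (Fin.forall_fin_one.2 ((Cst.of_lin lin).res_lies res' hL hM l l.isRd hβ).1)
  refine ⟨rk l.κ, ?_, b.trans a⟩
  let _ := l.κ.toAlgebra
  have : IsScalarTower ℂ Q.κ P.κ := IsScalarTower.of_algebraMap_eq fun x => (c x).symm
  have := fin_of_ff f0 f1
  exact Nat.cast_pos.2 (Module.finrank_pos (R := Q.κ) (M := P.κ))

theorem rk_pos : (0 : ℝ) < Module.finrank L M :=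
  have := fin_of_ff hL hM
  Nat.cast_pos.2 Module.finrank_pos

/-- the branch divisor has finite traces -/
theorem isB_br : IsB 1 (Hd.Br L M) := fun s hs => by
  obtain ⟨f, -, hf⟩ := Cb.pb_hur 2 L M _ hL hM lin
  choose d hd using down hL hM
  have c := mx_mem_Car s
  have e := (ok hL hM).pb_mx s
  have b : Big (mx (im (algebraMap L M) s)) := big_of_sq hM ((rows hM).nn_smp (smp_mx _)) (by
    rw [← e, I2_pb hL hM _ c]
    exact mul_pos (rk_pos hL hM) ((rows hL).sq_pos ((rows hL).nn_smp (smp_mx s)) hs))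
  refine (((rows hL).cnb s hs).union ((isB_add (rows hM).cnb ((rows hM).isb _ (dv_mem_Car f)) _
    b).image d)).subset fun Q k => ?_
  by_cases z : cn L 2 Q = 0
  · obtain ⟨P, l, j⟩ : ∃ P : Pl M, Hd.Ov L P Q ∧ 1 < Hd.ei P Q := by_contra fun n => k.2 (if_neg n)
    obtain ⟨r, r0, x⟩ := dg_pb hL hM l c
    refine Or.inr ⟨P, ⟨on_iff.2 ?_, fun y => ?_⟩, (hd P).uniq l⟩
    · rw [← e, x]
      exact mul_pos r0 (on_iff.1 k.1)
    · have := hf P Q l
      rw [y, z, zero_add, mul_one] at this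
      exact j.ne (by exact_mod_cast this)
  · exact Or.inl ⟨k.1, z⟩

/-- the canonical degree of a pull back -/
theorem cn_pb (h : Nn Λ) :
    I2 (cn M 2) (pb (algebraMap L M) Λ) ≤ Module.finrank L M * I2 (cn L 2 + Hd.Br L M) Λ := by
  obtain ⟨f, -, hf⟩ := Cb.pb_hur 2 L M _ hL hM lin
  have := fin_of_ff hL hM
  choose d hd using down hL hM
  have R := rows hM
  have n := R.nn_nef ((ok hL hM).nef (nak hL h))
  have i := isB_add R.cnb (R.isb _ (dv_mem_Car f))
  rw [← I2_pb hL hM _ h.car, ← R.congr_l R.cnb (Z' := cn M 2 + dv f)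
    (by rw [add_sub_cancel_left]; exact dv_mem_Prn f) n.car, I2_eq, I2_eq]
  refine finsum_le_finsum' (R.fin i n.car) ((((rows hL).fin (isB_add (rows hL).cnb (isB_br hL hM))
    h.car).preimage' (f := d) fun Q _ => (fin_above (K' := M) Q).subset
      fun P k => k ▸ hd P).subset fun P k => ?_) fun P => mul_le_mul_of_nonneg_right ?_ (n.nn P)
  · obtain ⟨r, -, x⟩ := dg_pb hL hM (hd P) h.car
    rw [mem_support, x, (hd P).pb] at k
    exact mul_ne_zero (right_ne_zero_of_mul (left_ne_zero_of_mul k))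
      (right_ne_zero_of_mul (right_ne_zero_of_mul k))
  · have a := hf P _ (hd P)
    have b : (1 : ℤ) ≤ Hd.ei P (d P) := (hd P).e_pos
    rw [(hd P).pb, Pi.add_apply (cn L 2), mul_add]
    rw [mul_add] at a
    rcases b.eq_or_lt with e | e
    · have : (0 : ℝ) ≤ Hd.Br L M (d P) := by
        rw [Hd.Br]
        split_ifs
        exacts [zero_le_one, le_rfl]
      rw [show P.ord (algebraMap L M (d P).t) = 1 from e.symm] at a ⊢
      push_cast at a ⊢
      linarith
    · rw [show Hd.Br L M (d P) = 1 from if_pos ⟨P, hd P, e⟩]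
      linarith

omit hL hM

/-- **END** for every bound on the degree -/
theorem end_gen (hV : Su.VOL2) (N : ℕ) (c : ℝ) (hc : 0 < c) : ∃ d₀ : ℕ, ∀ d, d₀ ≤ d →
    Hd.For2 fun L M _ _ _ _ _ _ => FF L 2 → Module.finrank L M ≤ N → ∀ H f, IsS d M H f →
      Psef (cn L 2 + c • Hd.Br L M) := by
  obtain ⟨d₀, h0⟩ := exists_nat_gt ((N : ℝ) * 9 + (N * (9 / (min c (1 / 4) / 2))) ^ 2)
  refine ⟨d₀ + 1, fun d hd L M _ _ _ _ _ _ hL hN H f h => by_contra fun k => ?_⟩
  have hM := h.ff
  obtain ⟨Λ, a, b, e1, e2, e3⟩ := core hL hV (isB_br hL hM) (fun P => by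
    rw [Hd.Br]
    split_ifs
    exacts [Or.inr rfl, Or.inl rfl]) hc k
  have R := rows hM
  have o := ok hL hM
  have n := R.nn_nef (o.nef (nak hL b))
  have p := h.ps R (by omega)
  obtain ⟨γ, g, ne⟩ : ∃ γ ∈ Car L, I2 Λ γ ≠ 0 := by
    by_contra j
    exact e1.ne (I2_zero fun P _ => (num_iff (rows hL) b.car).1
      (fun γ g => by_contra fun n => j ⟨γ, g, n⟩) P)
  have r0 := rk_pos hL hM
  have r1 : (Module.finrank L M : ℝ) ≤ N := Nat.cast_le.2 hN
  have x := p.pen R n (Z := pb (algebraMap L M) Λ) (by rw [sub_self]; exact zero_mem _)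
    (fun P _ => CarZ.int (o.carZ a) P) (o.car g) (by
      rw [I2_pb hL hM _ g]
      exact mul_ne_zero r0.ne' ne)
  have y : (0 : ℝ) ≤ 9 / (min c (1 / 4) / 2) :=
    div_nonneg (by norm_num) (half_pos (lt_min hc (by norm_num))).le
  have z := pow_le_pow_left₀ (p.cn_nn R n) ((cn_pb hL hM b).trans
    ((mul_le_mul_of_nonneg_left e3 r0.le).trans (mul_le_mul_of_nonneg_right r1 y))) 2
  rw [I2_pb hL hM _ b.car] at x
  have w : (d₀ : ℝ) + 1 ≤ d := by exact_mod_cast hd
  nlinarith [h.deg, mul_le_mul_of_nonneg_left e2 r0.le]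

/-- **END** -/
theorem end_of (hV : Su.VOL2) : Hd.END := end_gen hV 120

end Vale.Agent.P287D.En
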