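import Vale.Agent.P287D.Sh.Zar

/-!
# P287D, END: fibre classes, contraction of negative definite configurations, weak del Pezzo models
-/

set_option linter.unusedVariables false
set_option linter.unusedSectionVars false

open Set Function

noncomputable section

namespace Vale.Agent.P287D.En

open Sf Sh

variable {L : Type} [Field L] [Algebra ℂ L] {G N A X Z β γ Γ : BD L} {P Q : Pl L}

theorem I2_prop {a b : BD L} {r : ℝ} (R : Rows L) (hZ : IsB 1 Z) (hb : b ∈ Car L)
    (h : ∀ P, dg a P = r * dg b P) : I2 Z a = r * I2 Z b := by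
  rw [← R.smul_r r hZ hb, I2_eq, I2_eq]
  exact finsum_congr fun P => by rw [h P, R.smul r b hb]

variable (R : Rows L)
include R

/-- a class of square zero which is negative on the canonical class is a multiple of a conic -/
theorem fib (hG : Nn G) (G0 : 0 ≤ G) (sq : I2 G G = 0) (hK : I2 (cn L 2) G < 0) :
    ∃ f ∈ CarZ L, Nn f ∧ I2 f f = 0 ∧ -2 ≤ I2 (cn L 2) f ∧
      ∃ r : ℝ, 0 < r ∧ ∀ P, dg f P = r * dg G P := by
  have i := R.isb G hG.car
  have ne : ¬ ∀ P, dg G P = 0 := fun k => hK.ne (I2_zero fun P _ => k P)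
  have key : ∀ (n : ℕ) (m : Nm L), Det m.A G → {P | 0 < dg m.A P ∧ G P ≠ 0}.ncard = n →
      ∃ f ∈ CarZ L, Nn f ∧ I2 f f = 0 ∧ -2 ≤ I2 (cn L 2) f ∧ I2 (cn L 2) f < 0 ∧ I2 G f = 0 := by
    intro n
    induction n using Nat.strong_induction_on with
    | _ n ih =>
    intro m d hn
    obtain ⟨P, hP⟩ : ∃ P, G P * dg m.k P < 0 := by
      by_contra k
      have := I2_nonneg' fun P => not_lt.1 fun e => k ⟨P, e⟩
      rw [m.I2_k' R hG.car d] at this
      exact hK.not_ge this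
    have g0 : 0 < G P := (G0 P).lt_of_ne fun e => by simp [← e] at hP
    have k0 : dg m.k P < 0 := by
      by_contra k
      exact hP.not_ge (mul_nonneg g0.le (not_lt.1 k))
    have o : 0 < dg m.A P := m.kd.pos m.nn k0.ne
    have z : dg G P = 0 := by
      have := R.le_I2 i hG.car (fun Q => mul_nonneg (G0 Q) (hG.nn Q)) P
      rw [sq] at this
      exact le_antisymm (nonpos_of_mul_nonpos_right this g0) (hG.nn P)
    have e1 : I2 G (m.c P) = 0 := (m.I2_c' R o hG.car d).trans z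
    have e2 := (hi00 R hG.car (m.car o) sq.ge ne e1).1
    rw [m.I2_c o (m.cd P o)] at e2
    rcases e2.eq_or_lt with e | e
    · refine ⟨m.c P, m.cZ P o, ⟨m.car o, fun Q => ?_⟩, (m.I2_c o (m.cd P o)).trans e, ?_,
        (m.cn_c R o).trans_lt k0, e1⟩
      · by_cases j : Q = P
        · exact j ▸ e.ge
        · exact m.ne_nn R o j
      · have := m.gen P o
        have : (0 : ℝ) ≤ pg P.κ 1 := Nat.cast_nonneg _
        rw [m.cn_c R o]
        linarith
    · have h := (m.neg_of R o e k0).1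
      refine ih _ (hn ▸ ncard_lt_ncard ⟨fun Q k => ⟨((Nm.pos_iff R h).1 k.1).1, k.2⟩, fun s => ?_⟩
        (m.fin G i)) (Nm.ctr R h) (Nm.det_push_of R h d z) rfl
      exact ((Nm.pos_iff R h).1 (s ⟨o, g0.ne'⟩).1).2 rfl
  obtain ⟨m, d, -⟩ := R.ex2 hG.car hG.car
  obtain ⟨f, a, b, c, e, g, h⟩ := key _ m d rfl
  obtain ⟨r, -, k⟩ := (hi00 R hG.car b.car sq.ge ne h).2 c
  have k' : ∀ P, dg f P = r * dg G P := fun P => by
    have := k P
    rw [R.sub b.car (Submodule.smul_mem _ r hG.car), R.smul r G hG.car] at this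
    linarith
  refine ⟨f, a, b, c, e, r, ?_, k'⟩
  rw [I2_prop R R.cnb hG.car k'] at g
  exact pos_of_mul_neg_left g hK.le

/-- supports on a model control supports everywhere -/
theorem supp (m : Nm L) (hβ : β ∈ Car L) (dβ : Det m.A β) (hN : N ∈ Car L) (dN : Det m.A N)
    (N0 : 0 ≤ N) (h : ∀ P, 0 < dg m.A P → β P ≠ 0 → N P ≠ 0) (k : β P ≠ 0) : N P ≠ 0 := by
  obtain ⟨T, hT, e⟩ := hl_ex m (R.isb β hβ)
  rw [hl_self R m hβ dβ] at e
  rw [e, Finset.sum_apply] at k
  obtain ⟨C, hC, k⟩ := Finset.exists_ne_zero_of_sum_ne_zero k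
  obtain ⟨o, j⟩ := (hT C).1 hC
  have a := le_of R m (Submodule.smul_mem _ (N C) (m.car o)) hN
    (R.det_smul _ (m.cd C o) (m.car o)) dN (fun Q l => by
      rw [Pi.smul_apply, m.cδ C Q o l]
      by_cases s : Q = C
      · rw [s, Pl.δ_self, smul_eq_mul, mul_one]
      · rw [Pl.δ_ne s, smul_zero]; exact N0 Q) P
  exact ((mul_pos ((N0 C).lt_of_ne' (h C o j))
    ((m.c0 C o P).lt_of_ne' (right_ne_zero_of_mul k))).trans_le a).ne'

/-- the negative part is determined where the class is determined -/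
theorem det_zn (h : Zn X N) (hX : X ∈ Car L) (hA : Nn A) (hb : Big A) (d : Det A X) :
    Det A N := by
  have pos := R.sq_pos hA hb
  obtain ⟨β, a, b, c⟩ := R.mum hA hb (R.isb N h.car)
  obtain ⟨e, f⟩ := R.mum_nn hA pos h.nef (sub_mem hX a) (R.det_sub d b hX a) fun P k => by
    rw [Pi.sub_apply, Pi.sub_apply, c P k]
  have g := h.le β a (R.negat hA pos a (fun P k => c P k ▸ h.nn P) fun P k => (b P k).le) f
  rwa [le_antisymm g ((sub_le_sub_iff_left X).1 e)]

/-- the contraction of the negative part -/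
theorem ctr_zn (h : Zn X N) (hX : X ∈ Car L) (hA : Nn A) (d : Det A N) : ∃ E ∈ Car L, 0 ≤ E ∧
    Nn (A + E) ∧ ∀ P, 0 < dg (A + E) P → 0 < dg A P ∧ N P = 0 ∧ E P = 0 := by
  classical
  obtain ⟨m, dA, dN⟩ := R.ex2 hA.car h.car
  obtain ⟨S, hS, eN⟩ := hl_ex m (R.isb N h.car)
  rw [hl_self R m h.car dN] at eN
  have U : ∀ P ∈ S, 0 < dg m.A P := fun P k => ((hS P).1 k).1
  have nd : ∀ β ∈ Car L, Det m.A β → (∀ P, 0 < dg m.A P → β P ≠ 0 → P ∈ S) → 0 ≤ I2 β β →
      β = 0 := fun β a b c e => by_contra fun k =>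
    (h.nd R hX a (fun P => supp R m a b h.car dN h.nn fun P o j => ((hS P).1 (c P o j)).2)
      k).not_ge e
  have mem : ∀ x P, 0 < dg m.A P → m.cm S x P ≠ 0 → P ∈ S := fun x P i j =>
    by_contra fun n => j (m.cm_of_not R x U i n)
  let M : Matrix S S ℝ := fun Q P => dg (m.c P) Q
  let ex : (S → ℝ) → Pl L → ℝ := fun h P => if k : P ∈ S then h ⟨P, k⟩ else 0
  have e : ∀ x (Q : S), M.mulVecLin x Q = dg (m.cm S (ex x)) Q := fun x Q => by
    rw [m.dg_cm R _ U, ← Finset.sum_coe_sort S]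
    exact Finset.sum_congr rfl fun P _ => by simp [M, ex, mul_comm]
  have inj : Injective M.mulVecLin := (injective_iff_map_eq_zero _).2 fun x k => funext fun P => by
    have := nd _ (m.cm_car R (ex x) U) (m.cm_det R _ U) (mem _) (by
      rw [m.I2_cm R _ U (m.cm_car R _ U) (m.cm_det R _ U)]
      exact (Finset.sum_eq_zero fun Q s => by
        rw [(e x ⟨Q, s⟩).symm.trans (congrFun k _), Pi.zero_apply, mul_zero]).ge)
    have a := m.cm_of_mem R (ex x) U P.2
    rw [this] at a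
    simpa [ex] using a.symm
  obtain ⟨x, k⟩ := LinearMap.injective_iff_surjective.1 inj fun Q => -dg A Q
  have k' : ∀ Q ∈ S, dg (m.cm S (ex x)) Q = -dg A Q := fun Q s =>
    (e x ⟨Q, s⟩).symm.trans (congrFun k _)
  set E := m.cm S (ex x) with hE
  have c : E ∈ Car L := m.cm_car R _ U
  have dE : Det m.A E := m.cm_det R _ U
  have E0 : 0 ≤ E := by
    obtain ⟨p, pc, q, qc, e, p0, q0, dp, dq, j, o⟩ := split R m c dE
    have s : ∀ P, 0 < dg m.A P → q P ≠ 0 → P ∈ S := fun P l n => mem _ P l fun z =>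
      n (by rw [(o P l).2, show E P = 0 from z]; simp)
    have a : 0 ≤ I2 q (-E) := I2_nonneg' fun P => by
      rw [R.neg c]
      by_cases z : dg E P = 0
      · rw [z, neg_zero, mul_zero]
      by_cases y : q P = 0
      · rw [y, zero_mul]
      rw [k' P (s P (dE.pos m.nn z) y), neg_neg]
      exact mul_nonneg (q0 P) (hA.nn P)
    rw [R.neg_r (R.isb q qc) c, e, R.sub_r (R.isb q qc) pc qc] at a
    rw [e, nd q qc dq s (by linarith), sub_zero]
    exact p0
  have z : ∀ P, 0 < dg m.A P → P ∉ S → E P = 0 := fun P o n => m.cm_of_not R _ U o n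
  have y : ∀ P, dg m.A P = 0 ∨ P ∈ S → dg (A + E) P = 0 := fun P j => by
    rcases j with j | j
    · exact R.det_add dA dE hA.car c P j
    · rw [R.add A hA.car E c, k' P j, add_neg_cancel]
  refine ⟨E, c, E0, ⟨add_mem hA.car c, fun P => ?_⟩, fun P j => ?_⟩
  · by_cases j : dg m.A P = 0 ∨ P ∈ S
    · exact (y P j).ge
    · rw [not_or] at j
      rw [R.add A hA.car E c]
      exact add_nonneg (hA.nn P) (R.eff E c E0 P (z P (m.nn.pos_of j.1) j.2))
  · have n := not_or.1 fun l => j.ne' (y P l)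
    have o := m.nn.pos_of n.1
    refine ⟨hA.pos_of fun l => j.ne' ?_, by_contra fun l => n.2 ((hS P).2 ⟨o, l⟩), z P o n.2⟩
    have a := d P l
    rw [eN, dg_sum_c R m U, Finset.sum_eq_zero_iff_of_nonneg fun C s => mul_nonneg (h.nn C)
      (m.ne_nn R (U C s) fun e : P = C => n.2 (e ▸ s))] at a
    rw [R.add A hA.car E c, l, zero_add, hE, m.dg_cm R _ U]
    exact Finset.sum_eq_zero fun C s => by
      rw [(mul_eq_zero.1 (a C s)).resolve_left ((hS C).1 s).2, mul_zero]

/-- a pair with small coefficients and an anti nef class has a weak del Pezzo model -/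
theorem wdp (hN : Nn N) (hb : Big N) (hΓ : Γ ∈ Car L) {t : ℝ} (ht : 0 ≤ t)
    (e : ∀ P, dg Γ P = -t * dg N P) (h1 : ∀ P, 0 < dg N P → cn L 2 P ≤ Γ P)
    (h2 : ∀ P, Γ P ≤ cn L 2 P + 1 / 4) :
    ∃ m : Nm L, Nn (-m.k) ∧ Det N (-m.k) ∧ m.k ≤ Γ := by
  have d : Det N Γ := fun P k => by rw [e P, k, mul_zero]
  obtain ⟨m, a, -, b, c⟩ := R.minres hN hb
  have le := c Γ hΓ d h1
  have k : ∀ P, dg m.k P ≤ 0 := fun P => by
    by_contra k
    have k0 := not_le.1 k
    have o := m.kd.pos m.nn k0.ne'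
    have t1 := sub_mem hΓ m.kcar
    have t2 := Submodule.smul_mem _ ((Γ - m.k) P) (m.car o)
    have x := R.eff _ (sub_mem t1 t2) (sub_nonneg.2 (le_of R m t2 t1
      (R.det_smul _ (m.cd P o) (m.car o)) (R.det_sub (a.trans d) m.kd hΓ m.kcar) fun Q l => by
        rw [Pi.smul_apply, m.cδ P Q o l]
        by_cases s : Q = P
        · rw [s, Pl.δ_self, smul_eq_mul, mul_one]
        · rw [Pl.δ_ne s, smul_zero]; exact sub_nonneg.2 (le Q))) P (by
      rw [Pi.sub_apply, Pi.smul_apply, m.c_self o, smul_eq_mul, mul_one, sub_self])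
    rw [R.sub t1 t2, R.sub hΓ m.kcar, R.smul _ _ (m.car o), e P] at x
    have y1 : 0 ≤ (Γ - m.k) P := sub_nonneg.2 (le P)
    have y2 : (Γ - m.k) P ≤ 1 / 4 := by
      rw [Pi.sub_apply, m.ko P o]
      linarith [h2 P]
    have y3 := m.gen P o
    have y4 : (0 : ℝ) ≤ pg P.κ 1 := Nat.cast_nonneg _
    obtain ⟨z, hz⟩ := R.int _ m.kZ P
    have y5 : 1 ≤ dg m.k P := by
      rw [hz] at k0 ⊢
      exact_mod_cast k0
    nlinarith [mul_nonneg ht (hN.nn P), mul_nonneg y1 (show 0 ≤ dg (m.c P) P + dg m.k P + 2 by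
      linarith), mul_nonneg (sub_nonneg.2 y2) (show 0 ≤ dg m.k P + 2 by linarith)]
  refine ⟨m, ⟨neg_mem m.kcar, fun P => ?_⟩, fun P j => ?_, le⟩ <;> rw [R.neg m.kcar]
  · exact neg_nonneg.2 (k P)
  · rw [le_antisymm (k P) (b P j), neg_zero]

end Vale.Agent.P287D.En
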