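import Vale.Agent.P287D.En.Fib
import Vale.Agent.P287D.Sf.Row
import Vale.Agent.P287D.Su.St
import Vale.Agent.P287D.Api.Zar
import Vale.Agent.P287D.In.All
import Vale.Agent.P287D.Pr.Ls

/-!
# P287D, END: a moving class of small degree for a pair which is not pseudo-effective
-/

set_option linter.unusedVariables false

open Set Function

noncomputable section

namespace Vale.Agent.P287D.En

open Sf Sh

variable {L : Type} [Field L] [Algebra ℂ L] {A Z β γ Γ : BD L} (hL : FF L 2)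

include hL

theorem nak (h : Nn β) : Nef β := In.nef_two hL h.car fun P => (I2_δ P β).symm ▸ h.nn P

theorem I2_nn (h : Nn β) (h' : Nn γ) : 0 ≤ I2 β γ :=
  (rows hL).psef_nn (nak hL h).psef ((rows hL).isb β h.car) h'

theorem big_of_sq (h : Nn β) (k : 0 < I2 β β) : Big β :=
  (Ba.Vl.big_iff_vol hL (nak hL h)).2 (k.trans_eq (congrArg (I 2 L) (funext fun i => by
    fin_cases i <;> rfl)))

/-- the log smooth model of a reduced b-divisor -/
theorem pair (hZ : IsB 1 Z) (h01 : ∀ P, Z P = 0 ∨ Z P = 1) {q : ℚ} (q0 : 0 ≤ (q : ℝ))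
    (q1 : (q : ℝ) ≤ 1 / 2) : ∃ (s : Finset L) (Γ : BD L), Big (mx s) ∧ CarQ Γ ∧ Dsc (mx s) Γ ∧
      (∀ P, On 1 (mx s) P → Γ P = cn L 2 P + q * Z P) ∧ ∀ P, ¬ On 1 (mx s) P → Γ P ≤ cn L 2 P := by
  classical
  obtain ⟨s₀, κ₀, T₀, h₀, l₀, -⟩ := exists_ls (n := 1) hL finite_empty finite_empty
    (fun _ k => k.elim)
  obtain ⟨s, κ, T, h, l, a, b, c⟩ := exists_ls (n := 1) hL (hZ s₀ l₀.big) (finite_singleton κ₀)
    (fun _ k => k ▸ CarZ.car l₀.kz)
  have d : ∀ P, On 1 (mx s) P → Z P ≠ 0 → P ∈ T := fun P o z => by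
    by_contra n
    refine n (a P ⟨by_contra fun k => ?_, z⟩)
    have e1 := l₀.one P k
    have e2 := l.d0 o
    rw [dsc, Pi.sub_apply] at e1 e2
    rw [b.2 P o n] at e2
    rw [(c κ₀ rfl).2 P o n] at e1
    linarith
  obtain ⟨e, f⟩ := l.hull_sum Z
  have g : ∑ P ∈ T, Z P • h P ∈ CarZ L := sum_mem fun P _ => by
    rcases h01 P with k | k <;> rw [k]
    · rw [zero_smul]; exact zero_mem _
    · rw [one_smul]; exact l.hz P
  refine ⟨s, κ + (q : ℝ) • ∑ P ∈ T, Z P • h P, l.big, (CarZ.carQ l.kz).add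
    ((CarZ.carQ g).qsmul q), b.1.add (e.smul q), fun P o => ?_, fun P o => ?_⟩
  · rw [Pi.add_apply, Pi.smul_apply, f P o, l.term.hull.2 P o, smul_eq_mul]
    split_ifs with k
    · rfl
    · rw [not_not.1 fun z => k (d P o z)]
  · have e1 := l.one P o
    have e2 := l.snc P
    have e3 : (∑ Q ∈ T, Z Q • h Q) P ≤ ∑ Q ∈ T, h Q P := by
      rw [Finset.sum_apply]
      refine Finset.sum_le_sum fun Q k => ?_
      rcases h01 Q with j | j <;> rw [j]
      · rw [zero_smul]; exact l.nn (l.on Q k) P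
      · rw [one_smul]
    rw [dsc, Pi.sub_apply] at e1 e2
    rw [Pi.add_apply, Pi.smul_apply, smul_eq_mul]
    nlinarith [mul_le_mul_of_nonneg_left (e3.trans e2) q0]

/-- the pseudo-effective threshold is attained by an effective class -/
theorem thr {s : Finset L} (hb : Big (mx s)) (hq : CarQ Γ) (hd : Dsc (mx s) Γ) (hk : Klt 2 Γ)
    (hy : Bdy 1 (mx s) Γ) (h : ¬ Psef Γ) :
    ∃ t : ℝ, 0 < t ∧ Eff (Γ + t • mx s) ∧ ¬ Big (Γ + t • mx s) := by
  have c := mx_mem_Car s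
  obtain ⟨c₀, c1, c2⟩ := hd.exists_add
  let S : Set ℝ := {t | 0 ≤ t ∧ Psef (Γ + t • mx s)}
  have ne : S.Nonempty := ⟨c₀, c1.le, (c2 c₀ le_rfl).psef⟩
  have bd : BddBelow S := ⟨0, fun _ k => k.1⟩
  have t0 : 0 ≤ sInf S := le_csInf ne fun _ k => k.1
  have ps : Psef (Γ + sInf S • mx s) := Psef.of_lim hb c c fun η e => by
    obtain ⟨t, a, b⟩ := exists_lt_of_csInf_lt ne (lt_add_of_pos_right (sInf S) e)
    refine ⟨t - sInf S, ?_, ?_⟩
    · rw [abs_of_nonneg (sub_nonneg.2 (csInf_le bd a))]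
      linarith
    · rw [add_assoc, ← add_smul, add_sub_cancel]
      exact a.2
  have t1 : 0 < sInf S := t0.lt_of_ne fun e => h (by simpa [← e] using ps)
  refine ⟨sInf S, t1, ?_, fun k => ?_⟩
  · obtain ⟨a, a0, a1⟩ := exists_rat_btwn t1
    obtain ⟨b, b0, -⟩ := exists_rat_btwn (lt_add_one (sInf S))
    have ab : (0 : ℝ) < b - a := by linarith
    have x : ∀ r : ℚ, (0 : ℝ) < r → CarQ (Γ + (r : ℝ) • mx s) ∧ Dsc (mx s) (Γ + (r : ℝ) • mx s) ∧
        Γ ∈ Car L ∧ Klt 2 Γ ∧ Bdy 1 (mx s) Γ ∧ Nef (Γ + (r : ℝ) • mx s - Γ) ∧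
          Big (Γ + (r : ℝ) • mx s - Γ) := fun r r0 =>
      ⟨hq.add ((carQ_mx s).qsmul r), hd.add ((Dsc.refl (smp_mx s)).smul r), hq.car, hk, hy,
        by rw [add_sub_cancel_left]; exact (nef_mx s).smul r0.le,
        by rw [add_sub_cancel_left]; exact hb.smul r0⟩
    have y := (Api.zarh 1 L hL (Fin 2) (mx s) ![Γ + (a : ℝ) • mx s, Γ + (b : ℝ) • mx s] ![Γ, Γ]
      (smp_mx s) hb (Fin.forall_fin_two.2 ⟨x a a0, x b (t1.trans b0)⟩)).2
      ![(b - sInf S) / (b - a), (sInf S - a) / (b - a)]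
      (Fin.forall_fin_two.2 ⟨div_nonneg (sub_nonneg.2 b0.le) ab.le,
        div_nonneg (sub_nonneg.2 a1.le) ab.le⟩)
    have z : lc ![Γ + (a : ℝ) • mx s, Γ + (b : ℝ) • mx s]
        ![(b - sInf S) / (b - a), (sInf S - a) / (b - a)] = Γ + sInf S • mx s := by
      funext P
      simp only [lc, Fin.sum_univ_two, Matrix.cons_val_zero, Matrix.cons_val_one, Pi.add_apply,
        Pi.smul_apply, smul_eq_mul]
      field_simp
      ring
    rw [z] at y
    exact y ps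
  · obtain ⟨ε, e, a⟩ := k.opn c
    have m0 := lt_min e t1
    have := a (-min ε (sInf S)) (by rw [abs_neg, abs_of_pos m0]; exact min_le_left _ _)
    rw [add_assoc, ← add_smul] at this
    have := csInf_le bd ⟨by linarith [min_le_right ε (sInf S)], this.psef⟩
    linarith

/-- **the moving class** -/
theorem core (hV : Su.VOL2) (hZ : IsB 1 Z) (h01 : ∀ P, Z P = 0 ∨ Z P = 1) {c : ℝ} (hc : 0 < c)
    (h : ¬ Psef (cn L 2 + c • Z)) : ∃ Λ ∈ CarZ L, Nn Λ ∧ I2 (cn L 2) Λ < 0 ∧ I2 Λ Λ ≤ 9 ∧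
      I2 (cn L 2 + Z) Λ ≤ 9 / (min c (1 / 4) / 2) := by
  have R := rows hL
  have m0 : 0 < min c (1 / 4) := lt_min hc (by norm_num)
  obtain ⟨q, qa, qb⟩ := exists_rat_btwn (half_lt_self m0)
  have q0 : (0 : ℝ) < q := (half_pos m0).trans qa
  have q1 : (q : ℝ) ≤ 1 / 4 := qb.le.trans (min_le_right _ _)
  have Z0 : 0 ≤ Z := fun P => (h01 P).elim Eq.ge fun k => zero_le_one.trans k.ge
  have Z1 : ∀ P, Z P ≤ 1 := fun P => (h01 P).elim (fun k => k.le.trans zero_le_one) Eq.le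
  obtain ⟨s, Γ, hb, hq, hd, g1, g2⟩ := pair hL hZ h01 q0.le (q1.trans (by norm_num))
  have g3 : ∀ P, Γ P ≤ cn L 2 P + q * Z P := fun P => by
    by_cases o : On 1 (mx s) P
    · exact (g1 P o).le
    · exact (g2 P o).trans (le_add_of_nonneg_right (mul_nonneg q0.le (Z0 P)))
  have g4 : ∀ P, Γ P ≤ cn L 2 P + 1 / 4 := fun P => by
    nlinarith [g3 P, Z1 P, Z0 P]
  obtain ⟨t, t0, ⟨G, hG⟩, nb⟩ := thr hL hb hq hd
    (fun P => by rw [dsc, Pi.sub_apply]; linarith [g4 P])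
    (fun P o => by
      rw [dsc, Pi.sub_apply, g1 P o]
      linarith [mul_nonneg q0.le (Z0 P)])
    fun k => h (k.mono fun P => (g3 P).trans (add_le_add_right (mul_le_mul_of_nonneg_right
      (qb.le.trans (min_le_left _ _)) (Z0 P)) _))
  have ac := mx_mem_Car s
  have an := R.nn_smp (smp_mx s)
  have xc := add_mem hq.car (Submodule.smul_mem _ t ac)
  obtain ⟨N, hN⟩ := zn_eff R xc hG.eff
  have dX := R.det_add (R.det_dsc hd ac).2 (R.det_smul t (.refl _) ac) hq.car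
    (Submodule.smul_mem _ t ac)
  have dN := det_zn R hN xc an hb dX
  have iq := isB_add R.cnb (isB_smul q hZ)
  suffices ∃ Λ ∈ CarZ L, Nn Λ ∧ I2 (cn L 2) Λ < 0 ∧ I2 Λ Λ ≤ 9 ∧ -9 ≤ I2 (cn L 2) Λ ∧
      I2 (cn L 2 + (q : ℝ) • Z) Λ ≤ 0 by
    obtain ⟨Λ, a, b, d, e, f, g⟩ := this
    refine ⟨Λ, a, b, d, e, ?_⟩
    rw [R.add_l R.cnb (isB_smul q hZ) b.car, R.smul_l q hZ b.car] at g
    rw [R.add_l R.cnb hZ b.car, le_div_iff₀ (half_pos m0)]
    have := b.I2_nonneg fun P _ => Z0 P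
    nlinarith [half_pos m0]
  by_cases z : ∀ P, dg (Γ + t • mx s - N) P = 0
  · obtain ⟨E, ec, E0, a, b⟩ := ctr_zn R hN xc an dN
    have fc := add_mem hN.car (Submodule.smul_mem _ t ec)
    have F0 : 0 ≤ N + t • E := add_nonneg hN.nn (smul_nonneg t0.le E0)
    have e : ∀ P, dg (Γ - (N + t • E)) P = -t * dg (mx s + E) P := fun P => by
      have := z P
      rw [R.sub xc hN.car, R.add_smul hq.car ac] at this
      rw [R.sub hq.car fc, R.add_smul hN.car ec, R.add _ ac _ ec]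
      linarith
    have f : ∀ P, 0 < dg (mx s + E) P → (Γ - (N + t • E)) P = (cn L 2 + (q : ℝ) • Z) P :=
      fun P k => by
        obtain ⟨b1, b2, b3⟩ := b P k
        simp [b2, b3, g1 P (on_iff.2 b1)]
    have nb := hb.add_eff (.of_nonneg E0)
    obtain ⟨m, k1, k2, k3⟩ := wdp R a nb (sub_mem hq.car fc) t0.le e (fun P k => by
      rw [f P k]
      exact le_add_of_nonneg_right (mul_nonneg q0.le (Z0 P))) fun P =>
        (sub_le_self _ (F0 P)).trans (g4 P)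
    have gc := sub_mem hq.car fc
    have ik := R.isb _ k1.car
    have u1 : ∀ γ ∈ Car L, I2 (Γ - (N + t • E)) γ = -t * I2 γ (mx s + E) := fun γ j => by
      rw [R.symm _ gc γ j, I2_prop R (R.isb γ j) a.car e]
    have u2 : ∀ γ, Nn γ → t * I2 γ (mx s + E) ≤ I2 (-m.k) γ := fun γ j => by
      have := R.mono_l (R.isb _ m.kcar) (R.isb _ gc) j fun P _ => k3 P
      rw [u1 γ j.car] at this
      rw [R.neg_l (R.isb _ m.kcar) j.car]
      linarith
    have u3 := (mul_pos t0 (R.sq_pos a nb)).trans_le (u2 _ a)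
    have u4 := (mul_pos t0 u3).trans_le (u2 _ k1)
    have u5 : I2 (cn L 2) (-m.k) = -I2 (-m.k) (-m.k) := by
      rw [R.neg_l (R.isb _ m.kcar) k1.car, neg_neg, m.I2_k fun P j => by
        rw [R.neg m.kcar, m.kd P j, neg_zero]]
    have u6 : I2 (-m.k) (-m.k) ≤ 9 := le_of_eq_of_le (congrArg (I 2 L) (funext fun i => by
      fin_cases i <;> rfl)) (hV L hL m.k (nak hL k1) (big_of_sq hL k1 u4)
        (fun P => sub_nonneg.2 (m.k_le P)) fun P o => by
          have := on_iff.1 o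
          rw [R.neg m.kcar] at this
          exact (sub_eq_zero.2 (m.ko P (m.kd.pos m.nn (neg_pos.1 this).ne)).symm).le).2
    refine ⟨-m.k, neg_mem m.kZ, k1, by linarith, u6, by linarith, ?_⟩
    rw [← I2_congr fun P j => f P (k2.pos a j), u1 _ k1.car]
    linarith [mul_pos t0 u3]
  · have r : Rep (Γ + t • mx s - N) (G - N) := ⟨sub_nonneg.2 (hN.fix R xc hG), by
      rw [sub_sub_sub_cancel_right]; exact hG.prn⟩
    have pc := hN.nef.car
    have e : ∀ P, dg (G - N) P = dg (Γ + t • mx s - N) P := R.congr pc r.prn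
    have gn : Nn (G - N) := ⟨r.car pc, fun P => e P ▸ hN.nef.nn P⟩
    have e' : ∀ Z, I2 Z (G - N) = I2 Z (Γ + t • mx s - N) := fun Z => by simp only [I2_eq, e]
    have sq : I2 (Γ + t • mx s - N) (Γ + t • mx s - N) = 0 :=
      le_antisymm (not_lt.1 fun k => nb ((big_of_sq hL hN.nef k).mono (sub_le_self _ hN.nn)))
        (I2_nn hL hN.nef hN.nef)
    obtain ⟨a, ha, ne⟩ : ∃ a ∈ Car L, I2 (Γ + t • mx s - N) a ≠ 0 := by
      by_contra k
      exact z ((num_iff R pc).1 fun γ j => by_contra fun n => k ⟨γ, j, n⟩)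
    have u1 := R.big_pos hb (R.isb _ ac) hN.nef ha ne
    have u2 : I2 (cn L 2 + (q : ℝ) • Z) (Γ + t • mx s - N) < 0 := by
      have := sq
      rw [R.sub_l (R.isb _ xc) (R.isb _ hN.car) pc, I2_zero fun P => hN.orth R xc,
        R.add_l (R.isb _ hq.car) (isB_smul t (R.isb _ ac)) pc, R.smul_l t (R.isb _ ac) pc] at this
      rw [← I2_congr (Z := Γ) (Z' := cn L 2 + (q : ℝ) • Z) fun P j => g1 P (on_iff.2
        ((R.det_sub dX dN xc hN.car).pos an j))]
      linarith [mul_pos t0 u1]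
    have u3 : I2 (cn L 2) (G - N) < 0 := by
      rw [R.add_l R.cnb (isB_smul q hZ) pc, R.smul_l q hZ pc] at u2
      rw [e']
      linarith [mul_nonneg q0.le (hN.nef.I2_nonneg fun P _ => Z0 P)]
    obtain ⟨f, f1, f2, f3, f4, x, x0, f5⟩ := fib R gn r.nonneg (by
      rw [e', R.congr_l (R.isb _ pc) r.prn pc, sq]) u3
    refine ⟨f, f1, f2, ?_, by linarith, by linarith, ?_⟩
    · rw [I2_prop R R.cnb gn.car f5]
      exact mul_neg_of_pos_of_neg x0 u3
    · rw [I2_prop R iq gn.car f5, e']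
      exact (mul_neg_of_pos_of_neg x0 u2).le

end Vale.Agent.P287D.En
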