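import Vale.Agent.P287D.En.End
import Vale.Agent.P287D.Su.Mov
import Vale.Agent.P287D.Sh.Bpf
import Vale.Agent.P287D.Pc.Ns
import Vale.Agent.P287D.Ad.Main

/-!
# P287D: the rows on del Pezzo surfaces hold
-/

set_option linter.unusedVariables false

open Set Function

noncomputable section

namespace Vale.Agent.P287D.En

open Sf Sh Su

variable {L : Type} [Field L] [Algebra ℂ L] {Λ Γ : BD L} (hL : FF L 2)

include hL

/-- a place over a point outside finitely many curves -/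
theorem exists_off (m : Nm L) {T : Set (Pl L)} (hT : T.Finite) (h : ∀ P ∈ T, 0 < dg m.A P) :
    ∃ x, dg m.A x = 0 ∧ ∀ P ∈ T, m.c P x = 0 := by
  have R := rows hL
  obtain ⟨G, g, g0⟩ := (nm_smp hL R m).exists_rep hT
  obtain ⟨C, c1, c2⟩ := ex_pos R g (R.isb _ m.nn.car) m.nn.car m.pos
  have f := In.hy.rsd 1 L hL C
  obtain ⟨s, hs⟩ := Cv.exists_pos f
  obtain ⟨G', g', g1⟩ := (smp_mx s).exists_rep (hT.biUnion fun P _ =>
    (Cv.car_iff f).1 (In.res_car C (m.c P)))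
  obtain ⟨Q, hQ⟩ : ∃ Q, G' Q ≠ 0 := by
    by_contra k
    rw [← Cv.I1_rep f (mx_mem_Car s) g', show G' = 0 from funext fun Q =>
      by_contra fun e => k ⟨Q, e⟩, Cv.I1_zero] at hs
    exact hs.false
  obtain ⟨x, ⟨x1, x2⟩, x3, -⟩ := a2 1 L hL C Q (m.c '' insert C T) 0 (⌈-res C (m.c C) Q⌉ + 1)
    ((hT.insert C).image _) (by
      rintro _ ⟨P, k | k, rfl⟩
      exacts [m.car (k ▸ c2), m.car (h P k)]) (zero_mem _)
  refine ⟨x, m.nn.zero_of fun k => ?_, fun P k => ?_⟩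
  · have a := x2 _ ⟨C, mem_insert _ _, rfl⟩
    have b : ((⌈-res C (m.c C) Q⌉ + 1 : ℤ) : ℝ) ≤ x.ord C.t := Int.cast_le.2 x3
    rw [m.cδ C x c2 k, Pl.δ_ne x1, m.c_self c2] at a
    push_cast at b
    linarith [Int.le_ceil (-res C (m.c C) Q)]
  · rw [x2 _ ⟨P, mem_insert_of_mem _ k, rfl⟩, m.cδ P C (h P k) c2, Pl.δ_ne fun e : C = P =>
      c1.ne' (g0 C (e ▸ k)), zero_mul, add_zero]
    exact by_contra fun e => hQ (g1 Q (mem_biUnion k e))

theorem xr : Xr L where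
  nak _ := nak hL
  big _ h := big_of_sq hL ((rows hL).nn_nef h)
  rr := let ⟨χ, h, _⟩ := Sr.rr2 L hL; ⟨χ, h⟩
  fd m := by
    have R := rows hL
    obtain ⟨T, a, b⟩ := Pc.fin hL (nm_smp hL R m)
    refine ⟨T, fun γ k => (a γ k).car, fun β c d => ?_⟩
    obtain ⟨γ, e, f⟩ := b β (nm_dsc hL R m c d)
    have g : γ ∈ Car L := Submodule.span_le.2 (fun γ k => (a γ k).car) e
    refine ⟨γ, e, fun P => ?_⟩
    have x := (R.nn_nef f.1).nn P
    have y := (R.nn_nef f.2).nn P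
    rw [R.neg (sub_mem c g)] at y
    rw [R.sub c g] at x y
    linarith
  pt m _ := exists_off hL m

/-- a canonical class is the canonical class of the minimal resolution -/
theorem can_nm (hΛ : Nn Λ) (hb : Big Λ) (hΓ : Γ ∈ Car L) (d : Sf.Det Λ Γ) (h : Γ ≤ cn L 2)
    (k : ∀ P, 0 < dg Λ P → cn L 2 P ≤ Γ P) : ∃ m : Nm L, Sf.Det m.A Λ ∧ m.k = Γ := by
  have R := rows hL
  obtain ⟨m, a, -, -, b⟩ := R.minres hΛ hb
  exact ⟨m, a, le_antisymm (b Γ hΓ d k) (le_of R m hΓ m.kcar (a.trans d) m.kd fun P o =>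
    (h P).trans (m.ko P o).ge)⟩

/-- a terminal model is a numerical model -/
theorem term_nm (h : Term 1 Λ Γ) : ∃ m : Nm L, Sf.Det m.A Λ ∧ Sf.Det Λ m.A ∧ m.k = Γ := by
  have R := rows hL
  have n := R.nn_smp h.smp
  obtain ⟨a, b⟩ := R.det_dsc h.hull.1 n.car
  obtain ⟨m, c, d⟩ := can_nm hL n h.big a b (fun P => by
    by_cases o : On 1 Λ P
    · exact (h.hull.2 P o).le
    · exact sub_nonneg.1 (h.pos P o).le) fun P o => (h.hull.2 P (on_iff.2 o)).ge
  refine ⟨m, c, fun P e => m.nn.zero_of fun o => ?_, d⟩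
  have := h.pos P fun k => (on_iff.1 k).ne' e
  rw [dsc, Pi.sub_apply, ← d, m.ko P o, sub_self] at this
  exact this.false

omit hL

theorem dpv : DPV := fun K _ _ hK Λ Γ h n => by
  obtain ⟨m, -, -, rfl⟩ := term_nm hK h
  exact Su.dpv (rows hK) (xr hK) m ((rows hK).nn_nef n)

theorem vol2 : VOL2 := fun K _ _ hK Γ n b h k => by
  have R := rows hK
  have c : Γ ∈ Car K := by simpa using neg_mem n.car
  obtain ⟨m, -, rfl⟩ := can_nm hK (R.nn_nef n) b c (fun P e => by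
    rwa [R.neg c, neg_eq_zero] at e) (fun P => sub_nonneg.1 (h P)) fun P o =>
      sub_nonpos.1 (k P (on_iff.2 o))
  refine ⟨m.kZ, ?_⟩
  rw [vol_two, R.neg_l (R.isb _ c) n.car, R.neg_r (R.isb _ c) c, neg_neg]
  exact Su.dpv R (xr hK) m (R.nn_nef n)

theorem con8 : CON8 := fun K _ _ hK Λ Γ f h n a b c d e g => by
  have R := rows hK
  obtain ⟨m, i, -, rfl⟩ := term_nm hK h
  exact Su.con8 R (xr hK) m (R.nn_nef n) a (R.nn_nef b) (i.trans (R.det_dsc c h.smp.car).2) d e g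

theorem mov : MOV := fun K _ _ hK X k h n => by
  have R := rows hK
  obtain ⟨m, i, j, rfl⟩ := term_nm hK h
  obtain ⟨l, a, b, c, d, e⟩ := Su.mov R (xr hK) m n
  rw [← m.I2_k c] at d e
  refine ⟨l, a, nak hK b, dsc_of hK R (R.nn_smp h.smp) h.big m.kcar
    (fun P => neg_one_lt_zero.trans_le (dsc_k m P)) (fun P o => ?_)
    (fun P o => (m.kd P (j P o)).le) b.car (j.trans c), d, e⟩
  exact (sub_eq_zero.2 (m.ko P (i.pos m.nn o.ne')).symm).le

/-- **END** -/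
theorem end' : Hd.END := end_of vol2

end Vale.Agent.P287D.En
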